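import Vale.Agent.P113.Main

open Set
open scoped ContDiff

namespace Vale.Agent.Results.P113.HaltingDetection

open Vale.Agent.P113

/-- One rational point, one rational box and one force compiler such that, for every positive
viscosity, the forced flow from rest detects halting. -/
theorem result :
    ∃ (a lo hi : Fin 3 → ℚ) (F : MCode × List ℕ → ForceData),
      (∀ i, lo i < hi i) ∧ IsForceCompiler F ∧
      ∀ ν : ℝ, 0 < ν → ∀ (M : Machine) (w : List (Fin (M.nsym + 1))),
        ∃ (u : ℝ → Pt → Fin 3 → ℝ) (p : ℝ → Pt → ℝ),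
          ContDiff ℝ ∞ (fun z : ℝ × Pt => u z.1 z.2) ∧
          ContDiff ℝ ∞ (fun z : ℝ × Pt => p z.1 z.2) ∧
          (∀ T : ℝ, 0 < T → IsClassical ν T (forceVal ν (F (M.code, wordCode w))) u p) ∧
          (∀ T : ℝ, 0 < T → ∀ (v : ℝ → Pt → Fin 3 → ℝ) (q : ℝ → Pt → ℝ),
            IsClassical ν T (forceVal ν (F (M.code, wordCode w))) v q →
              ∀ t ∈ Icc 0 T, ∀ x, v t x = u t x ∧ q t x = p t x) ∧
          (∃ X, IsTrajectory u (fun i => (a i : ℝ)) X) ∧
          ∀ X, IsTrajectory u (fun i => (a i : ℝ)) X →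
            ((∃ t : ℝ, 0 ≤ t ∧ X t ∈ boxImage lo hi) ↔ Halts M w) :=
  halting_detection

end Vale.Agent.Results.P113.HaltingDetection
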